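import Vale.Agent.Lib.P123.Sup
import Vale.Agent.Lib.P123.Cert228

/-!
P123: the universal Crouzeix constant is at most `2.28 < 1 + √2`.
-/

namespace Vale.Agent.Results.P123.Bound228

open Polynomial
open scoped InnerProductSpace

universe u

/-- the numerical range of `A` -/
def numRange {H : Type u} [NormedAddCommGroup H] [InnerProductSpace ℂ H] (A : H →L[ℂ] H) :
    Set ℂ := {z : ℂ | ∃ x : H, ‖x‖ = 1 ∧ ⟪x, A x⟫_ℂ = z}

/-- `‖P(A)‖ ≤ 2.28 sup_{W(A)} |P|` for every bounded operator on a nonzero complex Hilbert space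
and every polynomial, and `2.28 < 1 + √2`. -/
theorem result :
    (∀ (H : Type u) [NormedAddCommGroup H] [InnerProductSpace ℂ H] [CompleteSpace H]
      [Nontrivial H] (A : H →L[ℂ] H) (P : ℂ[X]),
      ∃ M : ℝ, IsLUB ((fun z : ℂ => ‖P.eval z‖) '' numRange A) M ∧
        ‖aeval A P‖ ≤ (228 / 100 : ℝ) * M) ∧
    (228 / 100 : ℝ) < 1 + Real.sqrt 2 := by
  constructor
  · intro H _ _ _ _ A P
    obtain ⟨M, hM, h⟩ := Vale.Agent.P123.exists_isLUB_of_cert Vale.Agent.P123.cert228 A P
    refine ⟨M, hM, ?_⟩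
    norm_num at h ⊢
    exact h
  · have : (1.41 : ℝ) < Real.sqrt 2 := by
      rw [Real.lt_sqrt (by norm_num)]
      norm_num
    linarith

end Vale.Agent.Results.P123.Bound228
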