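import Vale.Agent.Lib.P123T.FinalAll

/-!
P123: Crouzeix's conjecture, the universal constant is `2`.
-/

namespace Vale.Agent.Results.P123.Crouzeix

open Polynomial
open scoped InnerProductSpace

universe u

/-- the numerical range of `A` -/
def numRange {H : Type u} [NormedAddCommGroup H] [InnerProductSpace ℂ H] (A : H →L[ℂ] H) :
    Set ℂ := {z : ℂ | ∃ x : H, ‖x‖ = 1 ∧ ⟪x, A x⟫_ℂ = z}

/-- the inequality `‖P(A)‖ ≤ C sup_{W(A)} |P|` for every nonzero complex Hilbert space, every
bounded operator `A` on it and every polynomial `P`; the supremum exists and is called `M` -/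
def IsCrouzeixConstant (C : ℝ) : Prop :=
  ∀ (H : Type u) [NormedAddCommGroup H] [InnerProductSpace ℂ H] [CompleteSpace H]
    [Nontrivial H] (A : H →L[ℂ] H) (P : ℂ[X]),
    ∃ M : ℝ, IsLUB ((fun z : ℂ => ‖P.eval z‖) '' numRange A) M ∧ ‖aeval A P‖ ≤ C * M

/-- Crouzeix's conjecture: the least constant is `2` -/
theorem result : IsLeast {C : ℝ | IsCrouzeixConstant.{u} C} 2 := by
  constructor
  · intro H _ _ _ _ A P
    exact Vale.Agent.P123.exists_isLUB_two A P
  · intro C hC
    obtain ⟨A, hA1, hA2⟩ := Vale.Agent.P123.exists_lower.{u}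
    obtain ⟨M, hM, hAM⟩ := hC (EuclideanSpace ℂ (ULift.{u} (Fin 2))) A X
    rw [aeval_X] at hAM
    have hM2 : M ≤ 1 / 2 := by
      apply hM.2
      rintro _ ⟨z, ⟨x, hx, rfl⟩, rfl⟩
      simp only [eval_X]
      exact hA2 x hx
    have hM0 : 0 ≤ M := by
      obtain ⟨x, hx⟩ := exists_norm_eq (EuclideanSpace ℂ (ULift.{u} (Fin 2))) zero_le_one
      exact (norm_nonneg _).trans (hM.1 ⟨_, ⟨x, hx, rfl⟩, rfl⟩)
    have h1 : 1 ≤ C * M := hA1.trans hAM
    have hC0 : 0 < C := by
      by_contra hcon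
      push Not at hcon
      nlinarith
    nlinarith

end Vale.Agent.Results.P123.Crouzeix
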